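import Vale.Agent.P032.R2.H951.FinalW

/-!
# P032, the world `WT` with at most four colours, written out
-/

set_option autoImplicit false

open Set Filter Topology Metric

noncomputable section

namespace Vale.Agent.P032.Six

open Vale.Agent.P032.S5.H843 Vale.Agent.P032.S5.H138

/-- **World `WT` with at most four colours**, written out. -/
theorem resultW4
    (top : ∀ (V : Fin 6 → Set ℂ) (T : ℂ → Set (Fin 6)), Irr V T → Mn V T → WT V T →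
      (∀ z, (T z).ncard ≤ 4) → False) :
    (∀ V : Fin 6 → Set (EuclideanSpace ℝ (Fin 2)), (∀ i, IsOpen (V i)) →
      (∀ i, ∀ x ∈ V i, ∀ y ∈ V i, dist x y ≠ 1) → Dense (⋃ i, V i) →
      ∃ U : Fin 6 → Set (EuclideanSpace ℝ (Fin 2)), (∀ i, V i ⊆ U i) ∧ Dense (⋃ i, U i) ∧
        ∀ i, Maximal (fun W : Set (EuclideanSpace ℝ (Fin 2)) =>
          IsOpen W ∧ ∀ x ∈ W, ∀ y ∈ W, dist x y ≠ 1) (U i)) ∧
    (∀ U : Fin 6 → Set (EuclideanSpace ℝ (Fin 2)), Dense (⋃ i, U i) →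
      (∀ i, Maximal (fun W : Set (EuclideanSpace ℝ (Fin 2)) =>
        IsOpen W ∧ ∀ x ∈ W, ∀ y ∈ W, dist x y ≠ 1) (U i)) →
      (∃ z, ∀ s : Set (Fin 6), s.ncard ≤ 4 → z ∈ closure ((⋃ j, U j) \ ⋃ i ∈ s, U i)) ∨
      ∃ z z', dist z z' = 1 ∧
        (∀ s : Set (Fin 6), s.ncard ≤ 3 → z ∈ closure ((⋃ j, U j) \ ⋃ i ∈ s, U i)) ∧
        (∀ s : Set (Fin 6), s.ncard ≤ 3 → z' ∈ closure ((⋃ j, U j) \ ⋃ i ∈ s, U i)) ∧
        (z, z') ∈ closure {p : EuclideanSpace ℝ (Fin 2) × EuclideanSpace ℝ (Fin 2) |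
          dist p.1 p.2 = 1 ∧ ∃ Q Q' : Set (Fin 6),
            (p.1 ∉ closure ((⋃ j, U j) \ ⋃ i ∈ Q, U i) ∧
              ∀ s ⊂ Q, p.1 ∈ closure ((⋃ j, U j) \ ⋃ i ∈ s, U i)) ∧
            (p.2 ∉ closure ((⋃ j, U j) \ ⋃ i ∈ Q', U i) ∧
              ∀ s ⊂ Q', p.2 ∈ closure ((⋃ j, U j) \ ⋃ i ∈ s, U i)) ∧
            4 ≤ Q.ncard ∧ 4 ≤ Q'.ncard ∧ 3 ≤ (Q ∩ Q').ncard}) := by
  refine ⟨fun V hV hfree hd => ?_, fun U hd hU => exists_pairW_of (n := 4) (by norm_num) top hU hd⟩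
  choose U hVU hU using fun i => Vale.Agent.P032.S5.H926.exists_maximal_ge (hV i) (hfree i)
  exact ⟨U, hVU, hd.mono (iUnion_mono hVU), hU⟩

end Vale.Agent.P032.Six
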